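import Mathlib
import Vale.Agent.P260.Defs
import Vale.Agent.P260.H145.PDZDef
import Vale.Agent.P260.H493.Defs

/-!
# P260 climb, block V: amenable torsion-free `PDG ℚ Γ 1` groups are virtually solvable
-/

namespace Vale.Agent.P260.H802

open Vale.Agent.P260.H145 (PD4Z)
open Vale.Agent.P260.H493 (PDG)

/-- V1: no torsion. -/
def StmtTF : Prop := ∀ (G : Type) [Group G], PD4Z G → ∀ g : G, g ≠ 1 → ¬ IsOfFinOrder g

/-- V2: for an idempotent over `ℚ[Γ]`, `Γ` amenable and torsion free, the trace of the augmentation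
is the canonical trace. -/
def StmtBass : Prop := ∀ (Γ : Type) [Group Γ], Folner Γ → (∀ g : Γ, g ≠ 1 → ¬ IsOfFinOrder g) →
  ∀ (r : ℕ) (π : (Fin r → MonoidAlgebra ℚ Γ) →ₗ[MonoidAlgebra ℚ Γ] (Fin r → MonoidAlgebra ℚ Γ)),
    (∀ v, π (π v) = π v) →
    ∑ j, (π (Pi.single j 1) j).coeff.sum (fun _ a => a) = ∑ j, (π (Pi.single j 1) j).coeff 1

/-- V3: the canonical trace of the top projective is at most `r 1 - r 0`. -/
def StmtTr : Prop := ∀ (Γ : Type) [Group Γ], Folner Γ → (∀ g : Γ, g ≠ 1 → ¬ IsOfFinOrder g) →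
  ∀ P : PDG ℚ Γ 1, ∑ j, (P.π (Pi.single j 1) j).coeff 1 ≤ (P.r 1 : ℚ) - P.r 0

/-- V4: if the rank of the top projective is at most `r 1 - r 0` then there is a character. -/
def StmtChar : Prop := ∀ (Γ : Type) [Group Γ] (P : PDG ℚ Γ 1), Group.FG Γ →
  ∑ j, (P.π (Pi.single j 1) j).coeff.sum (fun _ a => a) ≤ (P.r 1 : ℚ) - P.r 0 →
  ∃ ψ : Γ →* Multiplicative ℤ, Function.Surjective ψ

/-- V5a: finite generation of one-dimensional duality groups. -/
def StmtFG0 : Prop := ∀ (N : Type) [Group N], PDG ℚ N 0 → Group.FG N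

/-- V5: one-dimensional duality groups are virtually cyclic. -/
def StmtEnds : Prop := ∀ (N : Type) [Group N], PDG ℚ N 0 → Group.FG N →
  (∀ g : N, g ≠ 1 → ¬ IsOfFinOrder g) → VSolv N

/-- V6: finitely generated virtually solvable by solvable. -/
def StmtExt : Prop := ∀ (G Q : Type) [Group G] [Group Q] (f : G →* Q), Group.IsSolvable Q →
  Group.FG f.ker → VSolv f.ker → VSolv G

/-- V7: the target of block V. -/
def StmtPD2 : Prop := ∀ (Γ : Type) [Group Γ], Folner Γ → (∀ g : Γ, g ≠ 1 → ¬ IsOfFinOrder g) →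
  PDG ℚ Γ 1 → VSolv Γ

end Vale.Agent.P260.H802
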