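import Mathlib

/-!
# P260 block V: trace and rank of an almost idempotent matrix
-/

namespace Vale.Agent.P260.H802

open Matrix Module

section

set_option linter.unusedSectionVars false

variable {ι : Type} [Fintype ι] [DecidableEq ι]

/-- rational vectors as vectors of the Euclidean space -/
noncomputable def cst (v : ι → ℚ) : EuclideanSpace ℝ ι := WithLp.toLp 2 fun i => (v i : ℝ)

@[simp] theorem cst_apply (v : ι → ℚ) (i : ι) : cst v i = (v i : ℝ) := rfl

theorem cst_add (v w : ι → ℚ) : cst (v + w) = cst v + cst w := by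
  ext i; simp

theorem cst_sub (v w : ι → ℚ) : cst (v - w) = cst v - cst w := by
  ext i; simp

theorem cst_smul (r : ℚ) (v : ι → ℚ) : cst (r • v) = (r : ℝ) • cst v := by
  ext i; simp

theorem cst_zero : cst (0 : ι → ℚ) = 0 := by
  ext i; simp

/-- the matrix as a linear map of the Euclidean space -/
noncomputable def lin (X : Matrix ι ι ℚ) : EuclideanSpace ℝ ι →ₗ[ℝ] EuclideanSpace ℝ ι where
  toFun v := WithLp.toLp 2 fun i => ∑ j, (X i j : ℝ) * v j
  map_add' v w := by
    ext i
    simp [mul_add, Finset.sum_add_distrib]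
  map_smul' r v := by
    ext i
    simp [Finset.mul_sum, mul_left_comm]

theorem lin_apply (X : Matrix ι ι ℚ) (v : EuclideanSpace ℝ ι) (i : ι) :
    lin X v i = ∑ j, (X i j : ℝ) * v j := rfl

theorem lin_cst (X : Matrix ι ι ℚ) (v : ι → ℚ) : lin X (cst v) = cst (X *ᵥ v) := by
  ext i
  rw [lin_apply, cst_apply, Matrix.mulVec, dotProduct]
  push_cast
  rfl

theorem trace_lin (X : Matrix ι ι ℚ) :
    LinearMap.trace ℝ (EuclideanSpace ℝ ι) (lin X) = ((X.trace : ℚ) : ℝ) := by
  rw [LinearMap.trace_eq_sum_inner (lin X) (EuclideanSpace.basisFun ι ℝ), Matrix.trace]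
  push_cast
  refine Finset.sum_congr rfl fun i _ => ?_
  rw [EuclideanSpace.basisFun_apply, EuclideanSpace.inner_single_left, lin_apply]
  simp

theorem trace_le (X : Matrix ι ι ℚ) (J : Finset ι) (M : ℝ) (hM : 0 ≤ M)
    (U : Submodule ℚ (ι → ℚ)) (h1 : ∀ u ∈ U, X *ᵥ u = u)
    (h2 : ∀ j ∈ J, ∃ u ∈ U, X *ᵥ (Pi.single j 1 - u) = 0)
    (h3 : ∀ v : ι → ℝ, ∑ i, v i * ∑ j, (X i j : ℝ) * v j ≤ M * ∑ i, v i ^ 2) :
    ((X.trace : ℚ) : ℝ) ≤ finrank ℚ U + M * (Fintype.card ι - J.card) := by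
  classical
  set T := lin X with hT
  set UR : Submodule ℝ (EuclideanSpace ℝ ι) := Submodule.span ℝ (cst '' (U : Set (ι → ℚ))) with hUR
  set YR : Submodule ℝ (EuclideanSpace ℝ ι) :=
    UR ⊔ Submodule.span ℝ ((fun j => cst (Pi.single j 1)) '' (J : Set ι)) with hYR
  have hU1 : ∀ u ∈ UR, T u = u := by
    intro u hu
    induction hu using Submodule.span_induction with
    | mem x hx =>
      obtain ⟨v, hv, rfl⟩ := hx
      rw [hT, lin_cst, h1 v hv]
    | zero => simp
    | add x y _ _ hx hy => rw [map_add, hx, hy]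
    | smul r x _ hx => rw [map_smul, hx]
  have hY0 : ∀ w ∈ Submodule.span ℝ ((fun j => (cst (Pi.single j 1) : EuclideanSpace ℝ ι)) ''
      (J : Set ι)), T w ∈ UR := by
    intro w hw
    induction hw using Submodule.span_induction with
    | mem x hx =>
      obtain ⟨j, hj, rfl⟩ := hx
      obtain ⟨u', hu', h0⟩ := h2 j hj
      have : T (cst (Pi.single j 1)) = cst u' := by
        have e1 : T (cst (Pi.single j 1 - u')) = 0 := by rw [hT, lin_cst, h0, cst_zero]
        rw [cst_sub, map_sub, sub_eq_zero] at e1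
        rw [e1]
        exact hU1 _ (Submodule.subset_span ⟨u', hu', rfl⟩)
      show T (cst (Pi.single j 1)) ∈ UR
      rw [this]
      exact Submodule.subset_span ⟨u', hu', rfl⟩
    | zero => simp
    | add x y _ _ hx hy =>
      rw [map_add]
      exact UR.add_mem hx hy
    | smul r x _ hx =>
      rw [map_smul]
      exact UR.smul_mem r hx
  have hY1 : ∀ y ∈ YR, T y ∈ UR := by
    intro y hy
    obtain ⟨u, hu, w, hw, rfl⟩ := Submodule.mem_sup.1 hy
    rw [map_add, hU1 u hu]
    exact UR.add_mem hu (hY0 w hw)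
  set P : EuclideanSpace ℝ ι →ₗ[ℝ] EuclideanSpace ℝ ι := YR.starProjection.toLinearMap with hP
  have hPmem : ∀ x, P x ∈ YR := fun x => YR.starProjection_apply_mem x
  have hPid : ∀ x ∈ YR, P x = x := fun x hx => Submodule.starProjection_eq_self_iff.2 hx
  have hPsym : ∀ x y, inner ℝ (P x) y = inner ℝ x (P y) := fun x y =>
    YR.inner_starProjection_left_eq_right x y
  have hProjP : LinearMap.IsProj YR P := ⟨hPmem, hPid⟩
  have hUY : UR ≤ YR := le_sup_left
  have hProjT : LinearMap.IsProj UR (T ∘ₗ P) :=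
    ⟨fun x => hY1 _ (hPmem x), fun x hx => by
      rw [LinearMap.comp_apply, hPid x (hUY hx), hU1 x hx]⟩
  have ht1 : LinearMap.trace ℝ _ (T ∘ₗ P) = finrank ℝ UR := hProjT.trace
  have ht2 : LinearMap.trace ℝ _ P = finrank ℝ YR := hProjP.trace
  set Q : EuclideanSpace ℝ ι →ₗ[ℝ] EuclideanSpace ℝ ι := LinearMap.id - P with hQ
  have hQQ : Q ∘ₗ Q = Q := by
    ext1 x
    simp only [hQ, LinearMap.comp_apply, LinearMap.sub_apply, LinearMap.id_apply, map_sub]
    rw [hPid _ (hPmem x)]
    simp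
  have hQsym : ∀ x y, inner ℝ (Q x) y = inner ℝ x (Q y) := by
    intro x y
    simp only [hQ, LinearMap.sub_apply, LinearMap.id_apply, inner_sub_left, inner_sub_right]
    rw [hPsym]
  have hsplit : T = T ∘ₗ P + T ∘ₗ Q := by
    rw [hQ, LinearMap.comp_sub, LinearMap.comp_id]; abel
  have ht3 : LinearMap.trace ℝ _ (T ∘ₗ Q) = LinearMap.trace ℝ _ (Q ∘ₗ T ∘ₗ Q) := by
    have e1 := LinearMap.trace_mul_comm ℝ (T ∘ₗ Q) Q
    have e2 : (T ∘ₗ Q) * Q = T ∘ₗ Q := by
      show (T ∘ₗ Q) ∘ₗ Q = T ∘ₗ Q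
      rw [LinearMap.comp_assoc, hQQ]
    rw [e2] at e1
    exact e1
  have ht4 : LinearMap.trace ℝ _ (Q ∘ₗ T ∘ₗ Q) ≤ M * LinearMap.trace ℝ _ Q := by
    rw [LinearMap.trace_eq_sum_inner _ (EuclideanSpace.basisFun ι ℝ),
      LinearMap.trace_eq_sum_inner _ (EuclideanSpace.basisFun ι ℝ), Finset.mul_sum]
    refine Finset.sum_le_sum fun i _ => ?_
    set b := EuclideanSpace.basisFun ι ℝ i
    have e1 : inner ℝ b ((Q ∘ₗ T ∘ₗ Q) b) = inner ℝ (Q b) (T (Q b)) := by
      rw [hQsym]; rfl
    have e2 : inner ℝ b (Q b) = inner ℝ (Q b) (Q b) := by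
      rw [hQsym]
      have : Q (Q b) = Q b := LinearMap.congr_fun hQQ b
      rw [this]
    rw [e1, e2]
    have e3 := h3 (fun i => Q b i)
    have e4 : inner ℝ (Q b) (T (Q b)) = ∑ i, Q b i * ∑ j, (X i j : ℝ) * Q b j := by
      rw [PiLp.inner_apply]
      refine Finset.sum_congr rfl fun i _ => ?_
      rw [hT, lin_apply]
      simp [mul_comm]
    have e5 : inner ℝ (Q b) (Q b) = ∑ i, Q b i ^ 2 := by
      rw [PiLp.inner_apply]
      refine Finset.sum_congr rfl fun i _ => ?_
      simp [sq]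
    rw [e4, e5]
    exact e3
  have ht5 : LinearMap.trace ℝ _ Q = (Fintype.card ι : ℝ) - finrank ℝ YR := by
    rw [hQ, map_sub, ht2, LinearMap.trace_id, finrank_euclideanSpace]
  have hdY : (J.card : ℝ) ≤ finrank ℝ YR := by
    have hli : LinearIndependent ℝ (fun j : J => (cst (Pi.single (j : ι) 1) : EuclideanSpace ℝ ι)) := by
      have hb := (EuclideanSpace.basisFun ι ℝ).toBasis.linearIndependent
      have h5 := hb.comp (fun j : J => (j : ι)) Subtype.val_injective
      have e0 : (fun j : J => (cst (Pi.single (j : ι) 1) : EuclideanSpace ℝ ι)) =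
          ⇑(EuclideanSpace.basisFun ι ℝ).toBasis ∘ fun j : J => (j : ι) := by
        funext j
        ext i
        simp only [cst_apply, Pi.single_apply, Function.comp_apply, OrthonormalBasis.coe_toBasis,
          EuclideanSpace.basisFun_apply, PiLp.single_apply]
        split_ifs <;> simp
      rw [e0]
      exact h5
    have h6 : Fintype.card J ≤ finrank ℝ YR := by
      have h7 : LinearIndependent ℝ (fun j : J =>
          (⟨cst (Pi.single (j : ι) 1), Submodule.mem_sup_right
            (Submodule.subset_span ⟨j, j.2, rfl⟩)⟩ : YR)) :=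
        LinearIndependent.of_comp YR.subtype hli
      exact h7.fintype_card_le_finrank
    rw [Fintype.card_coe] at h6
    exact_mod_cast h6
  have hdU : (finrank ℝ UR : ℝ) ≤ finrank ℚ U := by
    have hb := Module.finBasis ℚ U
    have h7 : UR ≤ Submodule.span ℝ (Set.range fun k => cst (hb k : ι → ℚ)) := by
      rw [hUR, Submodule.span_le]
      rintro _ ⟨u, hu, rfl⟩
      have h8 := hb.sum_repr ⟨u, hu⟩
      have h9 : u = ∑ k, hb.repr ⟨u, hu⟩ k • (hb k : ι → ℚ) := by
        have := congrArg (Subtype.val) h8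
        rw [Submodule.coe_sum] at this
        simpa using this.symm
      have h10 : cst u = ∑ k, ((hb.repr ⟨u, hu⟩ k : ℚ) : ℝ) • cst (hb k : ι → ℚ) := by
        ext i
        conv_lhs => rw [h9]
        simp [cst_apply, Finset.sum_apply]
      rw [SetLike.mem_coe, h10]
      exact Submodule.sum_mem _ fun k _ => Submodule.smul_mem _ _
        (Submodule.subset_span ⟨k, rfl⟩)
    have h11 := Submodule.finrank_mono h7
    have h12 : finrank ℝ (Submodule.span ℝ (Set.range fun k => cst (hb k : ι → ℚ)))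
        ≤ Fintype.card (Fin (finrank ℚ U)) := finrank_range_le_card _
    rw [Fintype.card_fin] at h12
    exact_mod_cast h11.trans h12
  calc ((X.trace : ℚ) : ℝ) = LinearMap.trace ℝ _ T := (trace_lin X).symm
    _ = LinearMap.trace ℝ _ (T ∘ₗ P) + LinearMap.trace ℝ _ (T ∘ₗ Q) := by
        conv_lhs => rw [hsplit]
        rw [map_add]
    _ ≤ finrank ℚ U + M * (Fintype.card ι - J.card) := by
        rw [ht1, ht3]
        refine add_le_add hdU (ht4.trans ?_)
        rw [ht5]
        exact mul_le_mul_of_nonneg_left (by linarith) hM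

/-- Schur's test for the quadratic form. -/
theorem quad_le (X : Matrix ι ι ℚ) (M : ℝ) (hr : ∀ i, ∑ j, |(X i j : ℝ)| ≤ M)
    (hc : ∀ j, ∑ i, |(X i j : ℝ)| ≤ M) (v : ι → ℝ) :
    ∑ i, v i * ∑ j, (X i j : ℝ) * v j ≤ M * ∑ i, v i ^ 2 := by
  have h1 : ∀ i j, v i * ((X i j : ℝ) * v j) ≤ |(X i j : ℝ)| * ((v i ^ 2 + v j ^ 2) / 2) := by
    intro i j
    have h2 : v i * ((X i j : ℝ) * v j) ≤ |(X i j : ℝ)| * |v i * v j| := by
      rw [← abs_mul]
      refine (le_abs_self _).trans (le_of_eq ?_)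
      congr 1; ring
    refine h2.trans (mul_le_mul_of_nonneg_left ?_ (abs_nonneg _))
    rw [abs_mul]
    have := sq_nonneg (|v i| - |v j|)
    have e1 := sq_abs (v i)
    have e2 := sq_abs (v j)
    nlinarith
  calc ∑ i, v i * ∑ j, (X i j : ℝ) * v j = ∑ i, ∑ j, v i * ((X i j : ℝ) * v j) := by
        simp only [Finset.mul_sum]
    _ ≤ ∑ i, ∑ j, |(X i j : ℝ)| * ((v i ^ 2 + v j ^ 2) / 2) :=
        Finset.sum_le_sum fun i _ => Finset.sum_le_sum fun j _ => h1 i j
    _ = (∑ i, v i ^ 2 / 2 * ∑ j, |(X i j : ℝ)|) + ∑ j, v j ^ 2 / 2 * ∑ i, |(X i j : ℝ)| := by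
        have e1 : ∑ j, v j ^ 2 / 2 * ∑ i, |(X i j : ℝ)| = ∑ i, ∑ j, |(X i j : ℝ)| * (v j ^ 2 / 2) := by
          rw [Finset.sum_comm]
          refine Finset.sum_congr rfl fun j _ => ?_
          rw [Finset.mul_sum]
          exact Finset.sum_congr rfl fun i _ => mul_comm _ _
        rw [e1, ← Finset.sum_add_distrib]
        refine Finset.sum_congr rfl fun i _ => ?_
        rw [Finset.mul_sum, ← Finset.sum_add_distrib]
        exact Finset.sum_congr rfl fun j _ => by ring
    _ ≤ (∑ i, v i ^ 2 / 2 * M) + ∑ j, v j ^ 2 / 2 * M := by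
        refine add_le_add (Finset.sum_le_sum fun i _ => ?_) (Finset.sum_le_sum fun j _ => ?_)
        · exact mul_le_mul_of_nonneg_left (hr i) (by positivity)
        · exact mul_le_mul_of_nonneg_left (hc j) (by positivity)
    _ = M * ∑ i, v i ^ 2 := by
        rw [← Finset.sum_mul, ← Finset.sum_div]
        ring

end

end Vale.Agent.P260.H802
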