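import Mathlib
import Vale.Agent.P260.H802.VSpec
import Vale.Agent.P260.H493.Basic
import Vale.Agent.P260.H802.TrA

/-!
# P260 block V: windows
-/

namespace Vale.Agent.P260.H802

open Matrix Module MonoidAlgebra
open Vale.Agent.P260.H493 (PDG map_k_smul expand coeff_single_mul')

section

set_option linter.unusedSectionVars false

variable {Γ : Type} [Group Γ] {ι κ : Type}

/-- vectors with support in `E` -/
def VW (ι : Type) (E : Set Γ) : Submodule ℚ (ι → MonoidAlgebra ℚ Γ) where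
  carrier := {v | ∀ i g, (v i).coeff g ≠ 0 → g ∈ E}
  add_mem' := by
    intro v w hv hw i g h
    by_cases h1 : (v i).coeff g = 0
    · refine hw i g fun h2 => h ?_
      simp [h1, h2]
    · exact hv i g h1
  zero_mem' := by intro i g h; simp at h
  smul_mem' := by
    intro r v hv i g h
    refine hv i g fun h2 => h ?_
    simp [h2]

theorem mem_VW {E : Set Γ} {v : ι → MonoidAlgebra ℚ Γ} :
    v ∈ VW ι E ↔ ∀ i g, (v i).coeff g ≠ 0 → g ∈ E := Iff.rfl

theorem VW_mono {E E' : Set Γ} (h : E ⊆ E') : VW ι E ≤ VW ι E' := fun _ hv i g hg => h (hv i g hg)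

/-- The restriction of coordinates. -/
noncomputable def rho (ι : Type) (E : Finset Γ) :
    (ι → MonoidAlgebra ℚ Γ) →ₗ[ℚ] (ι × E → ℚ) where
  toFun v p := (v p.1).coeff p.2
  map_add' v w := by funext p; simp
  map_smul' r v := by funext p; simp

theorem rho_apply {E : Finset Γ} (v : ι → MonoidAlgebra ℚ Γ) (p : ι × E) :
    rho ι E v p = (v p.1).coeff p.2 := rfl

theorem rho_inj {E : Finset Γ} {v : ι → MonoidAlgebra ℚ Γ} (hv : v ∈ VW ι (E : Set Γ))
    (h : rho ι E v = 0) : v = 0 := by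
  funext i
  apply MonoidAlgebra.ext
  ext g
  by_contra h1
  have h2 : (v i).coeff g ≠ 0 := by simpa using h1
  exact h2 (congrFun h (i, ⟨g, hv i g h2⟩))

/-- the vector with given coordinates -/
noncomputable def sec (ι : Type) (E : Finset Γ) : (ι × E → ℚ) →ₗ[ℚ] (ι → MonoidAlgebra ℚ Γ) where
  toFun f i := ∑ x : E, single (x : Γ) (f (i, x))
  map_add' f g := by funext i; simp [Finset.sum_add_distrib]
  map_smul' r f := by
    funext i
    simp only [Pi.smul_apply, smul_eq_mul, RingHom.id_apply, Finset.smul_sum]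
    refine Finset.sum_congr rfl fun x _ => ?_
    rw [MonoidAlgebra.smul_single, smul_eq_mul]

theorem sec_coeff {E : Finset Γ} (f : ι × E → ℚ) (i : ι) (g : Γ) [Decidable (g ∈ E)] :
    (sec ι E f i).coeff g = if h : g ∈ E then f (i, ⟨g, h⟩) else 0 := by
  classical
  show (∑ x : E, single (x : Γ) (f (i, x))).coeff g = _
  rw [MonoidAlgebra.coeff_sum, Finsupp.finsetSum_apply]
  split_ifs with h
  · rw [Finset.sum_eq_single (⟨g, h⟩ : E)]
    · simp
    · intro b _ hb
      rw [coeff_single, Finsupp.single_apply, if_neg]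
      intro hbg; exact hb (Subtype.ext hbg)
    · intro h; exact absurd (Finset.mem_univ _) h
  · refine Finset.sum_eq_zero fun x _ => ?_
    rw [coeff_single, Finsupp.single_apply, if_neg]
    intro hx; exact h (hx ▸ x.2)

theorem finrank_VW [Fintype ι] (E : Finset Γ) :
    finrank ℚ (VW ι (E : Set Γ)) = Fintype.card ι * E.card := by
  classical
  have e : VW ι (E : Set Γ) ≃ₗ[ℚ] (ι × E → ℚ) :=
    { (rho ι E).comp (VW ι (E : Set Γ)).subtype with
      invFun := fun f => ⟨sec ι E f, by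
        intro i g hg
        rw [sec_coeff] at hg
        by_contra h
        rw [dif_neg (fun h' => h (Finset.mem_coe.2 h'))] at hg
        exact hg rfl⟩
      left_inv := by
        intro v
        apply Subtype.ext
        funext i
        apply MonoidAlgebra.ext
        ext g
        show (sec ι E (rho ι E v) i).coeff g = _
        rw [sec_coeff]
        split_ifs with h
        · rfl
        · by_contra h1
          exact h (v.2 i g fun h2 => h1 h2.symm)
      right_inv := by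
        intro f
        funext p
        show (sec ι E f p.1).coeff p.2 = f p
        rw [sec_coeff, dif_pos p.2.2] }
  rw [e.finrank_eq, finrank_fintype_fun_eq_card, Fintype.card_prod, Fintype.card_coe]

instance [Finite ι] (E : Finset Γ) : FiniteDimensional ℚ (VW ι (E : Set Γ)) := by
  classical
  cases nonempty_fintype ι
  exact FiniteDimensional.of_injective ((rho ι E).comp (VW ι (E : Set Γ)).subtype) (by
    rw [← LinearMap.ker_eq_bot, LinearMap.ker_eq_bot']
    intro v hv
    exact Subtype.ext (rho_inj v.2 hv))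

/-- An `A`-linear map as a `ℚ`-linear map -/
noncomputable def toQ (T : (ι → MonoidAlgebra ℚ Γ) →ₗ[MonoidAlgebra ℚ Γ] (κ → MonoidAlgebra ℚ Γ)) :
    (ι → MonoidAlgebra ℚ Γ) →ₗ[ℚ] (κ → MonoidAlgebra ℚ Γ) where
  toFun := T
  map_add' := T.map_add
  map_smul' r v := map_k_smul T r v

@[simp] theorem toQ_apply
    (T : (ι → MonoidAlgebra ℚ Γ) →ₗ[MonoidAlgebra ℚ Γ] (κ → MonoidAlgebra ℚ Γ))
    (v : ι → MonoidAlgebra ℚ Γ) : toQ T v = T v := rfl

/-- coefficients of `T v` -/
theorem coeff_map [Fintype ι] [DecidableEq ι]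
    (T : (ι → MonoidAlgebra ℚ Γ) →ₗ[MonoidAlgebra ℚ Γ] (κ → MonoidAlgebra ℚ Γ))
    (v : ι → MonoidAlgebra ℚ Γ) (k : κ) (y : Γ) :
    (T v k).coeff y = ∑ i, ∑ x ∈ (v i).coeff.support,
      (v i).coeff x * (T (Pi.single i 1) k).coeff (x⁻¹ * y) := by
  conv_lhs => rw [expand v]
  rw [map_sum, Finset.sum_apply, MonoidAlgebra.coeff_sum, Finsupp.finsetSum_apply]
  refine Finset.sum_congr rfl fun i _ => ?_
  rw [map_sum, Finset.sum_apply, MonoidAlgebra.coeff_sum, Finsupp.finsetSum_apply]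
  refine Finset.sum_congr rfl fun x _ => ?_
  rw [map_k_smul, T.map_smul]
  simp only [Pi.smul_apply, smul_eq_mul, MonoidAlgebra.coeff_smul, Finsupp.smul_apply]
  rw [coeff_single_mul', one_mul]

/-- coefficients of `T v`, for `v` with support in `E` -/
theorem coeff_map' [Fintype ι] [DecidableEq ι]
    (T : (ι → MonoidAlgebra ℚ Γ) →ₗ[MonoidAlgebra ℚ Γ] (κ → MonoidAlgebra ℚ Γ))
    {E : Finset Γ} {v : ι → MonoidAlgebra ℚ Γ} (hv : v ∈ VW ι (E : Set Γ)) (k : κ) (y : Γ) :
    (T v k).coeff y = ∑ i, ∑ x ∈ E,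
      (v i).coeff x * (T (Pi.single i 1) k).coeff (x⁻¹ * y) := by
  rw [coeff_map]
  refine Finset.sum_congr rfl fun i _ => ?_
  refine Finset.sum_subset (fun x hx => hv i x (by simpa using hx)) fun x _ hx => ?_
  have : (v i).coeff x = 0 := by simpa using hx
  rw [this, zero_mul]

/-- `T` moves supports by elements of `B`. -/
def Prop' [DecidableEq ι] (T : (ι → MonoidAlgebra ℚ Γ) →ₗ[MonoidAlgebra ℚ Γ] (κ → MonoidAlgebra ℚ Γ))
    (B : Set Γ) : Prop :=
  ∀ i k g, (T (Pi.single i 1) k).coeff g ≠ 0 → g ∈ B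

theorem Prop'.map_mem [Fintype ι] [DecidableEq ι]
    {T : (ι → MonoidAlgebra ℚ Γ) →ₗ[MonoidAlgebra ℚ Γ] (κ → MonoidAlgebra ℚ Γ)} {B : Set Γ}
    (hT : Prop' T B) {E E' : Set Γ} (h : ∀ x ∈ E, ∀ s ∈ B, x * s ∈ E')
    {v : ι → MonoidAlgebra ℚ Γ} (hv : v ∈ VW ι E) : T v ∈ VW κ E' := by
  intro k y hy
  rw [coeff_map] at hy
  obtain ⟨i, _, hi⟩ := Finset.exists_ne_zero_of_sum_ne_zero hy
  obtain ⟨x, hx, hx2⟩ := Finset.exists_ne_zero_of_sum_ne_zero hi
  have h1 := h x (hv i x (left_ne_zero_of_mul hx2)) _ (hT i k _ (right_ne_zero_of_mul hx2))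
  rwa [mul_inv_cancel_left] at h1

theorem exists_prop [Finite ι] [DecidableEq ι] [Finite κ]
    (T : (ι → MonoidAlgebra ℚ Γ) →ₗ[MonoidAlgebra ℚ Γ] (κ → MonoidAlgebra ℚ Γ)) :
    ∃ B : Finset Γ, Prop' T (B : Set Γ) := by
  classical
  cases nonempty_fintype ι
  cases nonempty_fintype κ
  refine ⟨Finset.univ.biUnion fun i => Finset.univ.biUnion fun k =>
    (T (Pi.single i 1) k).coeff.support, fun i k g hg => ?_⟩
  simp only [Finset.coe_biUnion, Set.mem_iUnion]
  exact ⟨i, by simp, k, by simp, by simpa using hg⟩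

end

end Vale.Agent.P260.H802
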