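import Mathlib
import Vale.Agent.P260.H802.TrB

/-!
# P260 block V: the canonical trace of the top projective (V3)
-/

namespace Vale.Agent.P260.H802

open Matrix Module MonoidAlgebra
open Vale.Agent.P260.H493 (PDG map_k_smul expand coeff_single_mul')

set_option linter.unusedSectionVars false

/-- Folner sets for right translations -/
theorem right_folner {Γ : Type} [Group Γ] (hF : Folner Γ) (B : Finset Γ) (ε : ℝ) (hε : 0 < ε) :
    ∃ E : Finset Γ, E.Nonempty ∧ ∀ s ∈ B,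
      (({x | x ∈ E ∧ x * s ∉ E} : Set Γ).ncard : ℝ) ≤ ε * E.card := by
  classical
  obtain ⟨F, hF1, hF2⟩ := hF (B.image fun s => s⁻¹) ε hε
  refine ⟨F.image fun x => x⁻¹, hF1.image _, fun s hs => ?_⟩
  have h1 := hF2 s⁻¹ (Finset.mem_image_of_mem _ hs)
  rw [Finset.card_image_of_injective _ inv_injective]
  refine le_trans ?_ h1
  have h2 : ({x | x ∈ F.image (fun x => x⁻¹) ∧ x * s ∉ F.image fun x => x⁻¹} : Set Γ) ⊆
      (fun y => (s * y)⁻¹) '' (((F.image fun x => s⁻¹ * x) \ F : Finset Γ) : Set Γ) := by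
    rintro x ⟨hx, hx2⟩
    obtain ⟨f, hf, rfl⟩ := Finset.mem_image.1 hx
    refine ⟨s⁻¹ * f, ?_, by simp⟩
    rw [Finset.mem_coe, Finset.mem_sdiff]
    refine ⟨Finset.mem_image.2 ⟨f, hf, rfl⟩, fun h => hx2 ?_⟩
    exact Finset.mem_image.2 ⟨s⁻¹ * f, h, by simp⟩
  have h3 := Set.ncard_le_ncard h2 ((Finset.finite_toSet _).image _)
  have h4 := Set.ncard_image_le (f := fun y => (s * y)⁻¹)
    (Finset.finite_toSet ((F.image fun x => s⁻¹ * x) \ F))
  rw [Set.ncard_coe_finset] at h4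
  exact_mod_cast h3.trans h4

theorem finrank_map_inj {V W : Type*} [AddCommGroup V] [Module ℚ V] [AddCommGroup W] [Module ℚ W]
    (f : V →ₗ[ℚ] W) (U : Submodule ℚ V) (h : ∀ u ∈ U, f u = 0 → u = 0) :
    finrank ℚ (U.map f) = finrank ℚ U := by
  rw [← LinearMap.range_domRestrict]
  refine LinearMap.finrank_range_of_inj ?_
  rw [← LinearMap.ker_eq_bot, LinearMap.ker_eq_bot']
  intro u hu
  exact Subtype.ext (h u u.2 hu)

theorem finrank_ker_add {V W : Type*} [AddCommGroup V] [Module ℚ V] [AddCommGroup W] [Module ℚ W]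
    (f : V →ₗ[ℚ] W) (U : Submodule ℚ V) [FiniteDimensional ℚ U] :
    finrank ℚ (U.map f) + finrank ℚ (U ⊓ LinearMap.ker f : Submodule ℚ V) = finrank ℚ U := by
  have e : (U ⊓ LinearMap.ker f : Submodule ℚ V) =
      (LinearMap.ker (f.domRestrict U)).map U.subtype := by
    ext x
    constructor
    · rintro ⟨h1, h2⟩
      exact ⟨⟨x, h1⟩, h2, rfl⟩
    · rintro ⟨u, hu, rfl⟩
      exact ⟨u.2, hu⟩
  rw [← LinearMap.finrank_range_add_finrank_ker (f.domRestrict U), LinearMap.range_domRestrict, e,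
    finrank_map_inj U.subtype (LinearMap.ker (f.domRestrict U)) (fun u _ hu => Subtype.ext hu)]

section

variable {Γ : Type} [Group Γ]

/-- right multiplication by `t - 1` is injective -/
theorem rmul_inj (t : Γ) (ht : ¬ IsOfFinOrder t) (a : MonoidAlgebra ℚ Γ)
    (h : a * (single t 1 - 1) = 0) : a = 0 := by
  classical
  have h1 : ∀ x, a.coeff (x * t⁻¹) = a.coeff x := by
    intro x
    have h2 : (a * single t (1 : ℚ)).coeff x = a.coeff (x * t⁻¹) := by
      simp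
    rw [mul_sub, mul_one, sub_eq_zero] at h
    rw [← h2, h]
  by_contra h0
  have h3 : ∃ x, a.coeff x ≠ 0 := by
    by_contra h4
    push Not at h4
    exact h0 (MonoidAlgebra.ext (Finsupp.ext h4))
  obtain ⟨x, hx⟩ := h3
  have h5 : ∀ n : ℕ, a.coeff (x * (t⁻¹) ^ n) = a.coeff x := by
    intro n
    induction n with
    | zero => simp
    | succ n ih => rw [pow_succ, ← mul_assoc, h1, ih]
  have h6 : Set.range (fun n : ℕ => x * (t⁻¹) ^ n) ⊆ (a.coeff.support : Set Γ) := by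
    rintro _ ⟨n, rfl⟩
    simp only [Finset.mem_coe, Finsupp.mem_support_iff]
    rw [h5]; exact hx
  have h7 : Function.Injective (fun n : ℕ => x * (t⁻¹) ^ n) := by
    intro n m hnm
    have h8 : (t⁻¹) ^ n = (t⁻¹) ^ m := mul_left_cancel hnm
    exact (injective_pow_iff_not_isOfFinOrder.2 (by simpa using ht)) h8
  exact Set.infinite_range_of_injective h7 ((Finset.finite_toSet _).subset h6)

/-- the compression of `T` to the window `E` -/
noncomputable def cmp {r : ℕ} (T : (Fin r → MonoidAlgebra ℚ Γ) →ₗ[MonoidAlgebra ℚ Γ]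
    (Fin r → MonoidAlgebra ℚ Γ)) (E : Finset Γ) : Matrix (Fin r × E) (Fin r × E) ℚ :=
  Matrix.of fun q p => (T (Pi.single p.1 1) q.1).coeff ((p.2 : Γ)⁻¹ * q.2)

theorem cmp_rho {r : ℕ} (T : (Fin r → MonoidAlgebra ℚ Γ) →ₗ[MonoidAlgebra ℚ Γ]
    (Fin r → MonoidAlgebra ℚ Γ)) (E : Finset Γ) {v : Fin r → MonoidAlgebra ℚ Γ}
    (hv : v ∈ VW (Fin r) (E : Set Γ)) : cmp T E *ᵥ (rho (Fin r) E v) = rho (Fin r) E (T v) := by
  funext q
  rw [rho_apply, coeff_map' T hv, Matrix.mulVec, dotProduct, Fintype.sum_prod_type]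
  refine Finset.sum_congr rfl fun i _ => ?_
  rw [← Finset.sum_coe_sort E]
  refine Finset.sum_congr rfl fun x _ => ?_
  rw [cmp, Matrix.of_apply, rho_apply, mul_comm]

theorem trace_cmp {r : ℕ} (T : (Fin r → MonoidAlgebra ℚ Γ) →ₗ[MonoidAlgebra ℚ Γ]
    (Fin r → MonoidAlgebra ℚ Γ)) (E : Finset Γ) :
    (cmp T E).trace = E.card * ∑ j, (T (Pi.single j 1) j).coeff 1 := by
  rw [Matrix.trace, Fintype.sum_prod_type, Finset.mul_sum]
  refine Finset.sum_congr rfl fun i _ => ?_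
  simp [cmp, Matrix.diag]

/-- bound for the absolute row and column sums -/
noncomputable def bnd {r : ℕ} (T : (Fin r → MonoidAlgebra ℚ Γ) →ₗ[MonoidAlgebra ℚ Γ]
    (Fin r → MonoidAlgebra ℚ Γ)) : ℝ :=
  ∑ i, ∑ j, ∑ g ∈ (T (Pi.single i 1) j).coeff.support, |((T (Pi.single i 1) j).coeff g : ℝ)|

theorem bnd_nonneg {r : ℕ} (T : (Fin r → MonoidAlgebra ℚ Γ) →ₗ[MonoidAlgebra ℚ Γ]
    (Fin r → MonoidAlgebra ℚ Γ)) : 0 ≤ bnd T :=
  Finset.sum_nonneg fun _ _ => Finset.sum_nonneg fun _ _ => Finset.sum_nonneg fun _ _ =>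
    abs_nonneg _

theorem sum_abs_le (a : MonoidAlgebra ℚ Γ) (E : Finset Γ) (f : E → Γ) (hf : Function.Injective f) :
    ∑ x : E, |(a.coeff (f x) : ℝ)| ≤ ∑ g ∈ a.coeff.support, |(a.coeff g : ℝ)| := by
  classical
  have h1 : ∑ x : E, |(a.coeff (f x) : ℝ)| = ∑ g ∈ Finset.univ.image f, |(a.coeff g : ℝ)| := by
    rw [Finset.sum_image (fun x _ y _ h => hf h)]
  rw [h1]
  have h2 : ∑ g ∈ Finset.univ.image f, |(a.coeff g : ℝ)| =
      ∑ g ∈ (Finset.univ.image f).filter (fun g => a.coeff g ≠ 0), |(a.coeff g : ℝ)| := by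
    rw [Finset.sum_filter_of_ne]
    intro g _ hg h0
    exact hg (by rw [h0]; simp)
  rw [h2]
  refine Finset.sum_le_sum_of_subset_of_nonneg (fun g hg => ?_) fun _ _ _ => abs_nonneg _
  simpa using (Finset.mem_filter.1 hg).2

theorem row_le {r : ℕ} (T : (Fin r → MonoidAlgebra ℚ Γ) →ₗ[MonoidAlgebra ℚ Γ]
    (Fin r → MonoidAlgebra ℚ Γ)) (E : Finset Γ) (q : Fin r × E) :
    ∑ p, |(cmp T E q p : ℝ)| ≤ bnd T := by
  rw [Fintype.sum_prod_type, bnd]
  refine Finset.sum_le_sum fun i _ => ?_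
  have h1 := sum_abs_le (T (Pi.single i 1) q.1) E (fun x => (x : Γ)⁻¹ * q.2) (by
    intro x y hxy
    exact Subtype.ext (inv_injective (mul_right_cancel hxy)))
  refine le_trans h1 ?_
  exact Finset.single_le_sum (f := fun j => ∑ g ∈ (T (Pi.single i 1) j).coeff.support,
    |((T (Pi.single i 1) j).coeff g : ℝ)|)
    (fun j _ => Finset.sum_nonneg fun _ _ => abs_nonneg _) (Finset.mem_univ q.1)

theorem col_le {r : ℕ} (T : (Fin r → MonoidAlgebra ℚ Γ) →ₗ[MonoidAlgebra ℚ Γ]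
    (Fin r → MonoidAlgebra ℚ Γ)) (E : Finset Γ) (p : Fin r × E) :
    ∑ q, |(cmp T E q p : ℝ)| ≤ bnd T := by
  rw [Fintype.sum_prod_type]
  have h0 : ∑ j, ∑ g ∈ (T (Pi.single p.1 1) j).coeff.support,
      |((T (Pi.single p.1 1) j).coeff g : ℝ)| ≤ bnd T := by
    rw [bnd]
    exact Finset.single_le_sum (f := fun i => ∑ j, ∑ g ∈ (T (Pi.single i 1) j).coeff.support,
      |((T (Pi.single i 1) j).coeff g : ℝ)|)
      (fun j _ => Finset.sum_nonneg fun _ _ => Finset.sum_nonneg fun _ _ => abs_nonneg _)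
      (Finset.mem_univ p.1)
  refine le_trans (Finset.sum_le_sum fun j _ => ?_) h0
  exact sum_abs_le (T (Pi.single p.1 1) j) E (fun x => (p.2 : Γ)⁻¹ * x) (by
    intro x y hxy
    exact Subtype.ext (mul_left_cancel hxy))

end

end Vale.Agent.P260.H802
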