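import Mathlib
import Vale.Agent.P260.H802.TrC

/-!
# P260 block V: proof of V3
-/

namespace Vale.Agent.P260.H802

open Module MonoidAlgebra
open scoped Matrix
open Vale.Agent.P260.H493 (PDG map_k_smul expand coeff_single_mul')

section

variable {Γ : Type} [Group Γ]

/-- the rank of the top projective in a window -/
theorem rank_top (P : PDG ℚ Γ 1) (t : Γ) (ht : ¬ IsOfFinOrder t) :
    ∃ B : Finset Γ, Prop' P.π (B : Set Γ) ∧ ∀ E E1 E2 : Finset Γ,
      (∀ x ∈ E1, ∀ s ∈ B, x * s ∈ E) → (∀ x ∈ E, ∀ s ∈ B, x * s ∈ E2) →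
      finrank ℚ ((VW (Fin (P.r 2)) (E1 : Set Γ)).map (toQ P.π)) + P.r 0 * E.card
        ≤ P.r 1 * E2.card := by
  classical
  obtain ⟨B1, hB1⟩ := exists_prop P.π
  obtain ⟨B2, hB2⟩ := exists_prop (P.d 1)
  -- the vectors u_j
  have hu : ∀ j : Fin (P.r 0), ∃ w, P.d 0 w =
      (single t (1 : ℚ) - 1 : MonoidAlgebra ℚ Γ) • (Pi.single j 1 : Fin (P.r 0) → MonoidAlgebra ℚ Γ) := by
    intro j
    refine (P.ex0 _).1 ?_
    rw [sub_smul, map_sub, P.eps_smul, one_smul, sub_self]
  choose u hu using hu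
  -- the map H
  let H : (Fin (P.r 0) → MonoidAlgebra ℚ Γ) →ₗ[MonoidAlgebra ℚ Γ] (Fin (P.r 1) → MonoidAlgebra ℚ Γ) :=
    (Pi.basisFun (MonoidAlgebra ℚ Γ) (Fin (P.r 0))).constr ℕ u
  have hH : ∀ j, H (Pi.single j 1) = u j := by
    intro j
    have := (Pi.basisFun (MonoidAlgebra ℚ Γ) (Fin (P.r 0))).constr_basis ℕ u j
    rwa [Pi.basisFun_apply] at this
  obtain ⟨B3, hB3⟩ := exists_prop H
  have hdH : ∀ v, P.d 0 (H v) = fun j => v j * (single t (1 : ℚ) - 1) := by
    intro v
    have h1 : v = ∑ j, (v j) • (Pi.single j 1 : Fin (P.r 0) → MonoidAlgebra ℚ Γ) := by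
      funext i
      simp [Finset.sum_apply, Pi.single_apply]
    conv_lhs => rw [h1]
    rw [map_sum, map_sum]
    funext i
    rw [Finset.sum_apply, Finset.sum_eq_single i]
    · rw [map_smul, map_smul, hH, hu]
      simp
    · intro j _ hj
      rw [map_smul, map_smul, hH, hu]
      simp [Pi.single_eq_of_ne (Ne.symm hj)]
    · intro h; exact absurd (Finset.mem_univ _) h
  refine ⟨B1 ∪ B2 ∪ B3, fun i k g hg => ?_, fun E E1 E2 h1 h2 => ?_⟩
  · have := hB1 i k g hg
    simp only [Finset.coe_union]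
    exact Or.inl (Or.inl this)
  have hd10 : ∀ v, P.d 0 (P.d 1 v) = 0 := fun v => (P.ex 0 (by norm_num) _).2 ⟨v, rfl⟩
  set U := (VW (Fin (P.r 2)) (E1 : Set Γ)).map (toQ P.π) with hU
  have hUE : U ≤ VW (Fin (P.r 2)) (E : Set Γ) := by
    rintro _ ⟨v, hv, rfl⟩
    exact hB1.map_mem (fun x hx s hs => h1 x hx s (by
      rw [Finset.mem_union, Finset.mem_union]; exact Or.inl (Or.inl hs))) hv
  have hinj : ∀ x ∈ U, toQ (P.d 1) x = 0 → x = 0 := by
    rintro _ ⟨v, _, rfl⟩ h0
    have := P.ex_top _ h0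
    rw [toQ_apply, P.pi_pi] at this
    exact this
  have hK : U.map (toQ (P.d 1)) ≤ VW (Fin (P.r 1)) (E2 : Set Γ) ⊓ LinearMap.ker (toQ (P.d 0)) := by
    rintro _ ⟨x, hx, rfl⟩
    refine ⟨hB2.map_mem (fun y hy s hs => h2 y hy s (by
      rw [Finset.mem_union, Finset.mem_union]; exact Or.inl (Or.inr hs))) (hUE hx), hd10 x⟩
  have hR : (VW (Fin (P.r 0)) (E : Set Γ)).map (toQ (P.d 0 ∘ₗ H)) ≤
      (VW (Fin (P.r 1)) (E2 : Set Γ)).map (toQ (P.d 0)) := by
    rintro _ ⟨x, hx, rfl⟩
    exact ⟨H x, hB3.map_mem (fun y hy s hs => h2 y hy s (by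
      rw [Finset.mem_union]; exact Or.inr hs)) hx, rfl⟩
  have hRi : finrank ℚ ((VW (Fin (P.r 0)) (E : Set Γ)).map (toQ (P.d 0 ∘ₗ H))) =
      P.r 0 * E.card := by
    rw [finrank_map_inj, finrank_VW, Fintype.card_fin]
    intro v _ hv
    have h3 : (P.d 0 ∘ₗ H) v = 0 := hv
    rw [LinearMap.comp_apply, hdH] at h3
    funext j
    exact rmul_inj t ht _ (congrFun h3 j)
  have hfd : FiniteDimensional ℚ ((VW (Fin (P.r 1)) (E2 : Set Γ)).map (toQ (P.d 0))) :=
    inferInstance
  set K : Submodule ℚ (Fin (P.r 1) → MonoidAlgebra ℚ Γ) :=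
    VW (Fin (P.r 1)) (E2 : Set Γ) ⊓ LinearMap.ker (toQ (P.d 0)) with hKdef
  have h4 : P.r 0 * E.card ≤ finrank ℚ ((VW (Fin (P.r 1)) (E2 : Set Γ)).map (toQ (P.d 0))) := by
    rw [← hRi]
    exact Submodule.finrank_mono hR
  have hfd2 : FiniteDimensional ℚ K := Submodule.finiteDimensional_of_le inf_le_left
  have h5 : finrank ℚ U ≤ finrank ℚ K := by
    rw [← finrank_map_inj _ _ hinj]
    exact Submodule.finrank_mono hK
  have h6 : finrank ℚ ((VW (Fin (P.r 1)) (E2 : Set Γ)).map (toQ (P.d 0))) + finrank ℚ K =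
      P.r 1 * E2.card := by
    have h7 := finrank_ker_add (toQ (P.d 0)) (VW (Fin (P.r 1)) (E2 : Set Γ))
    rw [finrank_VW, Fintype.card_fin] at h7
    exact h7
  omega

theorem tr (hF : Folner Γ) (htf : ∀ g : Γ, g ≠ 1 → ¬ IsOfFinOrder g) (P : PDG ℚ Γ 1) :
    ∑ j, (P.π (Pi.single j 1) j).coeff 1 ≤ (P.r 1 : ℚ) - P.r 0 := by
  classical
  -- `Γ` is not trivial
  have hnt : ∃ t : Γ, t ≠ 1 := by
    by_contra hall
    push Not at hall
    let φ : (Fin (P.r 0) → MonoidAlgebra ℚ Γ) →ₗ[MonoidAlgebra ℚ Γ] MonoidAlgebra ℚ Γ :=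
      { toFun := fun v => single 1 (P.ε v)
        map_add' := fun v w => by rw [map_add, single_add]
        map_smul' := fun a v => by
          have ha : a = single 1 (a.coeff 1) := by
            apply MonoidAlgebra.ext
            ext g
            rw [hall g]
            simp
          rw [ha, RingHom.id_apply, smul_eq_mul, single_mul_single, one_mul]
          congr 1
          have h1 : (single (1 : Γ) (a.coeff 1) : MonoidAlgebra ℚ Γ) • v = a.coeff 1 • v := by
            funext i
            apply MonoidAlgebra.ext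
            ext y
            simp
          rw [h1, map_smul, smul_eq_mul] }
    have h0 := P.co0 φ (LinearMap.ext fun v => by
      show single 1 (P.ε (P.d 0 v)) = 0
      rw [(P.ex0 _).2 ⟨v, rfl⟩, single_zero])
    obtain ⟨v, hv⟩ := P.eps_surj 1
    have h1 : φ v = 0 := by rw [h0]; rfl
    have h2 : (single (1 : Γ) (P.ε v) : MonoidAlgebra ℚ Γ).coeff 1 = 0 := by
      show (φ v).coeff 1 = 0
      rw [h1]; rfl
    rw [hv] at h2
    simp at h2
  obtain ⟨t, ht⟩ := hnt
  obtain ⟨B, hBπ, hB⟩ := rank_top P t (htf t ht)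
  set τ := ∑ j, (P.π (Pi.single j 1) j).coeff 1 with hτ
  set M := bnd P.π with hM
  -- it is enough to have an error term
  have key : ∀ ε : ℝ, 0 < ε → (τ : ℝ) ≤ P.r 1 - P.r 0 + ε * (B.card * (P.r 1 + M * P.r 2)) := by
    intro ε hε
    obtain ⟨E, hE, hE2⟩ := right_folner hF B ε hε
    set E1 := E.filter fun x => ∀ s ∈ B, x * s ∈ E with hE1
    set E2 := E ∪ (E ×ˢ B).image fun p => p.1 * p.2 with hE2'
    have hb1 : ∀ s ∈ B, ((E.filter fun x => x * s ∉ E).card : ℝ) ≤ ε * E.card := by
      intro s hs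
      refine le_trans (le_of_eq ?_) (hE2 s hs)
      rw [← Set.ncard_coe_finset]
      congr 2
      ext x; simp
    have hc1 : (E.card : ℝ) - E1.card ≤ B.card * (ε * E.card) := by
      have h1 : E ⊆ E1 ∪ B.biUnion fun s => E.filter fun x => x * s ∉ E := by
        intro x hx
        by_cases h : ∀ s ∈ B, x * s ∈ E
        · exact Finset.mem_union_left _ (Finset.mem_filter.2 ⟨hx, h⟩)
        · push Not at h
          obtain ⟨s, hs, hs2⟩ := h
          exact Finset.mem_union_right _ (Finset.mem_biUnion.2 ⟨s, hs, Finset.mem_filter.2 ⟨hx, hs2⟩⟩)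
      have h2 := (Finset.card_le_card h1).trans (Finset.card_union_le _ _)
      have h3 : ((B.biUnion fun s => E.filter fun x => x * s ∉ E).card : ℝ) ≤
          B.card * (ε * E.card) := by
        have h4 : ((B.biUnion fun s => E.filter fun x => x * s ∉ E).card : ℝ) ≤
            ∑ s ∈ B, ((E.filter fun x => x * s ∉ E).card : ℝ) := by
          exact_mod_cast Finset.card_biUnion_le
        refine h4.trans ((Finset.sum_le_sum hb1).trans ?_)
        rw [Finset.sum_const, nsmul_eq_mul]
      have h5 : (E.card : ℝ) ≤ E1.card + ((B.biUnion fun s => E.filter fun x => x * s ∉ E).card : ℝ) := by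
        exact_mod_cast h2
      linarith
    have hc2 : (E2.card : ℝ) ≤ E.card + B.card * (ε * E.card) := by
      have h1 : E2 ⊆ E ∪ B.biUnion fun s => (E.filter fun x => x * s ∉ E).image fun x => x * s := by
        intro y hy
        rcases Finset.mem_union.1 hy with hy | hy
        · exact Finset.mem_union_left _ hy
        · obtain ⟨⟨x, s⟩, hxs, rfl⟩ := Finset.mem_image.1 hy
          rw [Finset.mem_product] at hxs
          by_cases h : x * s ∈ E
          · exact Finset.mem_union_left _ h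
          · exact Finset.mem_union_right _ (Finset.mem_biUnion.2 ⟨s, hxs.2,
              Finset.mem_image.2 ⟨x, Finset.mem_filter.2 ⟨hxs.1, h⟩, rfl⟩⟩)
      have h2 := (Finset.card_le_card h1).trans (Finset.card_union_le _ _)
      have h3 : ((B.biUnion fun s => (E.filter fun x => x * s ∉ E).image fun x => x * s).card : ℝ) ≤
          B.card * (ε * E.card) := by
        have h4 : ((B.biUnion fun s => (E.filter fun x => x * s ∉ E).image fun x => x * s).card : ℝ) ≤
            ∑ s ∈ B, ((E.filter fun x => x * s ∉ E).card : ℝ) := by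
          have h5 := Finset.card_biUnion_le (s := B)
            (t := fun s => (E.filter fun x => x * s ∉ E).image fun x => x * s)
          have h6 : ∑ s ∈ B, ((E.filter fun x => x * s ∉ E).image fun x => x * s).card ≤
              ∑ s ∈ B, (E.filter fun x => x * s ∉ E).card :=
            Finset.sum_le_sum fun s _ => Finset.card_image_le
          exact_mod_cast h5.trans h6
        refine h4.trans ((Finset.sum_le_sum hb1).trans ?_)
        rw [Finset.sum_const, nsmul_eq_mul]
      have h5 : (E2.card : ℝ) ≤ E.card +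
          ((B.biUnion fun s => (E.filter fun x => x * s ∉ E).image fun x => x * s).card : ℝ) := by
        exact_mod_cast h2
      linarith
    have hm1 : ∀ x ∈ E1, ∀ s ∈ B, x * s ∈ E := fun x hx => (Finset.mem_filter.1 hx).2
    have hm2 : ∀ x ∈ E, ∀ s ∈ B, x * s ∈ E2 := fun x hx s hs =>
      Finset.mem_union_right _ (Finset.mem_image.2 ⟨(x, s), Finset.mem_product.2 ⟨hx, hs⟩, rfl⟩)
    have hrk := hB E E1 E2 hm1 hm2
    set Uq := (VW (Fin (P.r 2)) (E1 : Set Γ)).map (toQ P.π) with hUq
    have hUE : Uq ≤ VW (Fin (P.r 2)) (E : Set Γ) := by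
      rintro _ ⟨v, hv, rfl⟩
      exact hBπ.map_mem hm1 hv
    set J : Finset (Fin (P.r 2) × E) := Finset.univ.filter fun p => (p.2 : Γ) ∈ E1 with hJ
    have hJc : J.card = P.r 2 * E1.card := by
      have h1 : J = Finset.univ ×ˢ (Finset.univ.filter fun x : E => (x : Γ) ∈ E1) := by
        ext p; simp [hJ]
      have h2 : (Finset.univ.filter fun x : E => (x : Γ) ∈ E1).card = E1.card := by
        refine Finset.card_bij (fun x _ => (x : Γ)) (fun x hx => (Finset.mem_filter.1 hx).2)
          (fun x _ y _ hxy => Subtype.ext hxy) fun x hx => ?_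
        exact ⟨⟨x, (Finset.mem_filter.1 hx).1⟩, Finset.mem_filter.2 ⟨Finset.mem_univ _, hx⟩, rfl⟩
      rw [h1, Finset.card_product, Finset.card_univ, Fintype.card_fin, h2]
    have hmain := trace_le (cmp P.π E) J M (bnd_nonneg _) (Uq.map (rho (Fin (P.r 2)) E))
      (by
        rintro _ ⟨u, hu, rfl⟩
        rw [cmp_rho P.π E (hUE hu)]
        obtain ⟨v, _, rfl⟩ := hu
        rw [toQ_apply, P.pi_pi])
      (by
        rintro ⟨i, x⟩ hx
        have hx1 : (x : Γ) ∈ E1 := (Finset.mem_filter.1 hx).2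
        set e : Fin (P.r 2) → MonoidAlgebra ℚ Γ := Pi.single i (single (x : Γ) 1) with he
        have hee : rho (Fin (P.r 2)) E e = Pi.single (i, x) 1 := by
          funext p
          rw [rho_apply, he]
          obtain ⟨j, y⟩ := p
          by_cases hij : j = i
          · subst hij
            simp only [Pi.single_eq_same, coeff_single]
            rw [Finsupp.single_apply, Pi.single_apply]
            by_cases hxy : (x : Γ) = y
            · rw [if_pos hxy, if_pos (by rw [Subtype.ext hxy])]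
            · rw [if_neg hxy, if_neg (by
                intro h; exact hxy (by rw [Prod.mk.injEq] at h; rw [h.2]))]
          · have h8 : ((j, y) : Fin (P.r 2) × E) ≠ (i, x) := fun h => hij (congrArg Prod.fst h)
            rw [Pi.single_eq_of_ne h8, Pi.single_eq_of_ne hij]
            rfl
        have hev : e ∈ VW (Fin (P.r 2)) (E1 : Set Γ) := by
          intro j g hg
          by_cases hij : j = i
          · subst hij
            rw [he, Pi.single_eq_same, coeff_single, Finsupp.single_apply] at hg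
            by_cases hxg : (x : Γ) = g
            · rw [← hxg]; exact hx1
            · rw [if_neg hxg] at hg; exact absurd rfl hg
          · rw [he, Pi.single_eq_of_ne hij] at hg
            simp at hg
        have hEE : VW (Fin (P.r 2)) (E1 : Set Γ) ≤ VW (Fin (P.r 2)) (E : Set Γ) :=
          VW_mono (by intro y hy; exact (Finset.mem_filter.1 hy).1)
        refine ⟨rho (Fin (P.r 2)) E (P.π e), ⟨P.π e, ⟨e, hev, rfl⟩, rfl⟩, ?_⟩
        have h9 := cmp_rho P.π E (hEE hev)
        have h10 : cmp P.π E *ᵥ rho (Fin (P.r 2)) E (P.π e) = rho (Fin (P.r 2)) E (P.π (P.π e)) :=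
          cmp_rho P.π E (hUE ⟨e, hev, rfl⟩)
        rw [P.pi_pi] at h10
        rw [Matrix.mulVec_sub, ← hee]
        exact sub_eq_zero.2 (h9.trans h10.symm))
      (quad_le _ M (row_le P.π E) (col_le P.π E))
    rw [trace_cmp, Fintype.card_prod, Fintype.card_fin, Fintype.card_coe, hJc] at hmain
    have hfdU : FiniteDimensional ℚ Uq := Submodule.finiteDimensional_of_le hUE
    have h1 : (finrank ℚ (Uq.map (rho (Fin (P.r 2)) E)) : ℝ) ≤ finrank ℚ Uq := by
      exact_mod_cast Submodule.finrank_map_le _ _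
    have h2 : (finrank ℚ Uq : ℝ) + P.r 0 * E.card ≤ P.r 1 * E2.card := by exact_mod_cast hrk
    have hEpos : (0 : ℝ) < E.card := by exact_mod_cast hE.card_pos
    have h3 : (τ : ℝ) * E.card ≤
        (P.r 1 - P.r 0 + ε * (B.card * (P.r 1 + M * P.r 2))) * E.card := by
      have h4 : ((E.card * τ : ℚ) : ℝ) = τ * E.card := by push_cast; ring
      rw [← hτ, h4] at hmain
      push_cast at hmain
      have h5 : M * (P.r 2 * E.card - P.r 2 * E1.card) ≤ M * (P.r 2 * (B.card * (ε * E.card))) := by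
        refine mul_le_mul_of_nonneg_left ?_ (bnd_nonneg _)
        rw [← mul_sub]
        exact mul_le_mul_of_nonneg_left hc1 (by positivity)
      have h6 : (P.r 1 : ℝ) * E2.card ≤ P.r 1 * (E.card + B.card * (ε * E.card)) :=
        mul_le_mul_of_nonneg_left hc2 (by positivity)
      nlinarith
    exact le_of_mul_le_mul_right h3 hEpos
  have hlim : (τ : ℝ) ≤ P.r 1 - P.r 0 := by
    set C : ℝ := B.card * (P.r 1 + M * P.r 2) with hC
    have hC0 : 0 ≤ C := by
      have := bnd_nonneg P.π
      positivity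
    refine le_of_forall_pos_le_add fun δ hδ => ?_
    have h1 := key (δ / (C + 1)) (by positivity)
    have h2 : δ / (C + 1) * C ≤ δ := by
      rw [div_mul_eq_mul_div, div_le_iff₀ (by positivity)]
      nlinarith
    linarith
  exact_mod_cast hlim

end

/-- V3 -/
theorem stmtTr : StmtTr := fun _ _ hF htf P => tr hF htf P

end Vale.Agent.P260.H802
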