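import Mathlib

/-!
# P260 climb, block V: paper proofs of `H802/VSpec.lean` (text only)

A = ℚ[Γ], F_i = Fin (r i) → A, e_j = Pi.single j 1, g v = single g 1 • v, aug = sum of coefficients.

## V1 StmtTF   (PD4Z G ⇒ torsion free)
Let g ≠ 1 have finite order n ≥ 2.  For an additive group M with an additive endomorphism T with
T^n = 1 put N = ∑_{i<n} T^i (so N(T-1) = (T-1)N = 0).  Acyc M:  (a) T x = x ⇒ ∃ y, x = N y;
(b) N x = 0 ⇒ ∃ y, x = T y - y.
(i) Z[G]^m with T = left multiplication by g is Acyc: choose a transversal of the right cosets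
⟨g⟩ \ G, x = g^i t, i < n.  (a) f constant on cosets: y = f restricted to the transversal.
(b) y(g^i t) = - ∑_{j ≤ i} f(g^j t) (so y(g^{n-1} t) = 0): (gy - y)(g^i t) = y(g^{i-1}t) - y(g^i t).
(ii) If q : F → B is onto and commutes with T, A = ker q, and F and A are Acyc then B is Acyc:
(a) T b = b, b = q x: Tx - x ∈ A, N(Tx - x) = 0, so Tx - x = Ta - a with a ∈ A, T(x-a) = x-a, so
x - a = N y, b = N (q y).  (b) N b = 0, b = q x: Nx ∈ A is T-fixed, Nx = N a, N(x-a) = 0, x-a = Ty-y.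
(iii) F_4 ≅ im d_4 = ker d_3, im d_3 = ker d_2, im d_2 = ker d_1, im d_1 = ker ε, ℤ: all Acyc.  In ℤ
(T = 1) the element 1 is n y, so n = 1.  Contradiction.
(Work with submodules `ker`, or with a predicate on additive subgroups K ≤ F_i stable under T.)

## V2 StmtBass   (glue with the starting library of P184)
Vale/Agent/P184/Bdl/B3.lean: `good_of_folner` (P184.Folner, amenable centralizers, infinite order ⇒
`Good`), `vanishesAt_of_good : Good x → VanishesAt x` (for all idempotent matrices over l^1(Γ), tau = 0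
at the class of x; defs IsIdem, tau, VanishesAt in Vale/Agent/P184/Defs.lean).  (Also in B4:
`nice_of_amenable`.)  So: P260.Folner Γ → P184.Folner Γ → `IsAmenable` of Γ and of centralizers (B3/B4
have `IsAmenable.subgroup`, `isAmenable_iff`, Reiter).  Matrix: E i j g = (((π e_i) j).coeff g : ℂ);
π(π e_i) = ∑_j (π e_i)_j • π e_j gives E*E = E (finite sums inside tsum).  Every class ≠ class of 1
consists of elements of infinite order, so its tau is 0, and
∑_j aug((π e_j)_j) = ∑_{classes C meeting the finite support} tau C E = tau (class of 1) E.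

## V3 StmtTr   (helper802)
t ≠ 1 has infinite order; u_j with d_0 u_j = (t-1)e_j.  Windows E (|E s \ E| small for s in a finite set;
Folner is for left translations, so E = F⁻¹).  V_E(F_i) = vectors supported in E.
dim π V_E ≤ dim d_1 π V_E, d_1 π V_E ⊂ ker d_0 ∩ V_{EB}(F_1), d_0 V_{EB}(F_1) ⊃ {v (t-1) : v ∈ V_E(F_0)},
v ↦ v(t-1) is injective, so dim π V_E ≤ r1 |EB| - r0 |E|.  Compression X of π to V_E: trace X = |E| tr π;
X = 1 on U = π V_{E°}, X = 0 on W = (1-π) V_{E°}; the orthogonal complement of U + W has dimension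
≤ r2 |E \ E°|, and trace X = dim U + (trace of the compression of X to the complement) ≤
dim U + M r2 |E \ E°|.

## V4 StmtChar
Hom_A(F_i, ℚ_triv) = row vectors f ∈ ℚ^{r i}: φ_f(v) = ∑_j aug(v j) f j.  Π = matrix aug((π e_i) j):
idempotent, trace = a := the sum of the statement, rank Π = trace Π = a ≤ r1 - r0
(`LinearMap.IsProj.trace` or `Matrix` version).  For f ∈ Hom(F_1): f∘d_1 lies in {h : h∘π = h},
of dimension a (d_1 π = d_1), so dim {f : f∘d_1 = 0} ≥ r1 - a ≥ r0.  dim {y∘d_0 : y ∈ Hom(F_0)} ≤ r0 - 1,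
because ε∘d_0 = 0, ε ≠ 0 (eps_smul makes ε an element of Hom(F_0)).  So there is z : F_1 → ℚ,
z(gv) = z(v), z∘d_1 = 0, z not of the form y∘d_0.  z = f∘d_0 with f : ker ε → ℚ additive and invariant
(ex0, ex 0).  Choose v₀ with ε v₀ = 1, θ(g) = f(g v₀ - v₀); g v₀ - v₀ ∈ ker ε;
θ(gh) = θ(g) + θ(h).  If θ = 0 then y(v) = f(v - ε(v) v₀) is invariant and z = y∘d_0: no.
So θ : Γ → ℚ is a nonzero homomorphism; Γ f.g.: D θ is integral for a common denominator D of the
values on generators; its image is cℤ, c ≠ 0; ψ = D θ / c.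

## V5a StmtFG0: the proof of H493/Notes M2 (a) (uses only ex0, eps_surj, eps_smul).

## V5 StmtEnds   (write Γ for N; S finite symmetric generating set; A = ℚ[Γ]; Â = functions Γ → ℚ with
(g f)(y) = f(g⁻¹ y))
𝒱 = {v : Γ → ℚ | ∀ s, {x | v(x s) ≠ v x} is finite} (for all s ∈ S, hence for all s ∈ Γ).
(1) two elements v1, v2 of 𝒱 are dependent modulo (constants + finite support): for v ∈ 𝒱 let
v̂ : F_0 → Â, v̂(x e_j)(y) = ε(e_j) v(y⁻¹ x) (A-linear).  If ε(u) = 0 then v̂(u) has finite support, so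
φ_v := v̂∘d_0 : F_1 → A is A-linear and φ_v∘π = φ_v.  co_top: some (b1, b2) ≠ 0 has
b1 φ_{v1} + b2 φ_{v2} = χ∘d_0; w = b1 v1 + b2 v2; ŵ - χ kills im d_0 = ker ε, so ŵ(u) - χ(u) = κ ε(u) with
κ ∈ Â invariant, i.e. constant.  Take u with ε(u) = 1: ŵ(u)(y) = w(y⁻¹) for almost all y; so w = κ a.e.
(2) some v ∈ 𝒱 is not constant + finite support: φ₀ = f∘d_0, f : ker ε → A; ε(u₀) = 1;
z(g) = f(g u₀ - u₀) ∈ A, z(gh) = z(g) + g z(h); v(g) := z(g)(1).  v(xs) - v(x) = z(s)(x⁻¹).  With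
v̄(y) = v(y⁻¹): z(g)(y) = v̄(g⁻¹y) - v̄(y).  If v̄ = κ + b, b ∈ A, then z(g) = gb - b and
χ(u) = f(u - ε(u)u₀) + ε(u) b is A-linear with χ∘d_0 = φ₀: no.
(3) such a v takes finitely many values (B = finite set of x with v(xs) ≠ v(x) for some s ∈ S; a path from
x to a point of B has the constant value v(x) up to its first point in B).  Γ is infinite (co0: else
v ↦ ε(v)·∑g), so some fibre Aset = {v = κ} is infinite, and its complement is infinite.  1_A ∈ 𝒱.
(4) for g ∈ Γ, 1_{gA} ∈ 𝒱, so by (1) 1_{gA} = b 1_A + κ a.e., so gA =* A or gA =* Aᶜ (=*: up to finite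
sets).  Γ₀ = {g | gA =* A}, index ≤ 2.  f(g) = |A \ gA| - |gA \ A| = ∑ᶠ (1_A - 1_{gA}) : Γ₀ → ℤ is a
homomorphism.
(5) B = {x | ∃ s ∈ S, (x s ∈ A) ≠ (x ∈ A)} finite, not empty; K ⊃ B finite and connected.  If g ∉ K K⁻¹ then
gK ∩ K = ∅; 1_A is constant (α) on gK, 1_{gA} is constant (β) on K.  Q = {x | 1_A(x) = 1-α, 1_{gA}(x) = 1-β}
is closed under right multiplication by S (x ∈ Q, xs ∉ Q: x ∈ B ⊂ K where 1_{gA} = β, or x ∈ gB ⊂ gK where
1_A = α), so Q = ∅ (Q = Γ is impossible).  For g ∈ Γ₀: α = β contradicts Q = ∅ (A, Aᶜ infinite), α = 1,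
β = 0: gA ⊂ A; α = 0, β = 1: A ⊂ gA.  Equality gA = A gives gB = B, but gB ∩ B = ∅.  So f(g) ≠ 0.
(6) ker f ⊂ K K⁻¹ is finite, so trivial (torsion free), Γ₀ embeds in ℤ, so it is abelian; index ≤ 2.

## V6 StmtExt
K = ker f, f.g., S₀ ≤ K solvable of finite index n' ; may take S₀ normal in K (normalCore), n = its index.
S = intersection of the kernels of all homomorphisms K → Perm (Fin n): finitely many (K f.g.), each of
finite index, so S has finite index; S ≤ S₀ (action of K on K/S₀ ≃ Fin n); S is invariant under all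
automorphisms of K.  So S is normal in G (conjugation).  C = {g ∈ G | [g, K] ⊂ S} = kernel of G → Aut(K/S),
finite index in G.  C is solvable: C ⊇ C ∩ K ⊇ S; S is solvable, (C∩K)/S is abelian
([C∩K, C∩K] ⊂ [C, K] ⊂ S), C/(C∩K) embeds in Q.  (derived series: C^(m) ≤ K for some m, then
[C^(m), C^(m)] ≤ S.)

## V7
ψ by V4 (V2, V3), `Push ψ`, `Push ψ⁻¹` by H493 (M5, M6, M7, j = m = 1), Fiber with m = 0: N = ker ψ is
PDG ℚ N 0, f.g. (V5a), torsion free, so VSolv by V5; V6 for ψ.
-/
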